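import Vale.Agent.P144E.Basic

/-!
A product of local observables is a combination of small corrections.
-/

namespace Vale.Agent.P144Z

open Finset

namespace TiltH

variable {M : ℕ} [NeZero M]

theorem ZwC_sum {ι : Type} (q : Par) (c : Cor M) (A : Gauge M) (s : Finset ι) (a : ι → ℝ)
    (Φ : ι → (Tor M × Fin 2 → Bool) → ℝ) :
    ZwC q c A (fun n => ∑ i ∈ s, a i * Φ i n) = ∑ i ∈ s, a i * ZwC q c A (Φ i) := by
  unfold ZwC
  simp only [mul_sum]
  rw [sum_comm]
  exact sum_congr rfl fun i _ => sum_congr rfl fun n _ => by ring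

theorem ZwC_lin (q : Par) (c : Cor M) (A : Gauge M) (a b : ℝ) (Φ : (Tor M × Fin 2 → Bool) → ℝ) :
    ZwC q c A (fun n => a * Φ n + b) = a * ZwC q c A Φ + b * ZwC q c A 1 := by
  unfold ZwC
  simp only [mul_sum, ← sum_add_distrib, Pi.one_apply]
  exact sum_congr rfl fun n _ => by ring

/-- The contour sum without strings is an average. -/
theorem avg {q : Par} (hx : 0 < q.x) {Λ : Finset (ℤ × ℤ)} {T : ℕ} (hΛ : ∀ x ∈ Λ, zd x 0 ≤ T)
    (hM : 4 * (T + q.R + 2) ≤ M) (fr : Bool) :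
    ZwC q ((regOf M Λ fr).cor q) (regOf M Λ fr).pw 1 ≠ 0 ∧
      ∀ Φ : (Tor M × Fin 2 → Bool) → ℝ, BoxLoc (T + 1) Φ → (∀ n, 0 ≤ Φ n) →
        0 ≤ ZwC q ((regOf M Λ fr).cor q) (regOf M Λ fr).pw Φ /
          ZwC q ((regOf M Λ fr).cor q) (regOf M Λ fr).pw 1 := by
  cases fr
  · rw [show (regOf M Λ false).cor q = 0 from DH1.cor_plus _ q]
    simp only [ZwC_zero]
    have h0 := DH1.Zw_plus_pos hΛ (by omega : 2 * (T + 1) ≤ M) hx
    refine ⟨h0.ne', fun Φ _ hΦ => div_nonneg ?_ h0.le⟩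
    have h := DH1.Zw_plus hΛ (by omega : 2 * (T + 1) ≤ M) q (1 : Gauge M) Φ
    rw [mul_one] at h
    rw [h]
    refine mul_nonneg (by norm_num) (sum_nonneg fun σ _ => mul_nonneg (mul_nonneg ?_
      (Real.exp_nonneg _)) (hΦ _))
    rw [I1.wt_one, one_mul]
    exact H2D.wt_nonneg (H2D.pw_nonneg Λ) hx.le _
  · have h0 : 0 < ∑ σ : Tor M → Bool, DH1.wF q (Λ.image (prj M)) (dom σ) :=
      sum_pos (fun _ _ => DH1.wF_pos hx _ _) univ_nonempty
    have h1 := DH1.ZwC_free hx hΛ hM (Φ := 1) fun _ _ _ => rfl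
    simp only [Pi.one_apply, one_mul] at h1
    refine ⟨by rw [h1]; exact neg_ne_zero.2 h0.ne', fun Φ hl hΦ => ?_⟩
    rw [h1, DH1.ZwC_free hx hΛ hM hl, neg_div_neg_eq]
    exact div_nonneg (sum_nonneg fun σ _ => mul_nonneg (hΦ _) (DH1.wF_pos hx _ _).le) h0.le

theorem avg_bd {q : Par} (hx : 0 < q.x) {Λ : Finset (ℤ × ℤ)} {T : ℕ} (hΛ : ∀ x ∈ Λ, zd x 0 ≤ T)
    (hM : 4 * (T + q.R + 2) ≤ M) (fr : Bool) {Φ : (Tor M × Fin 2 → Bool) → ℝ}
    (hl : BoxLoc (T + 1) Φ) {a b : ℝ} (h : ∀ n, a ≤ Φ n ∧ Φ n ≤ b) :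
    a ≤ ZwC q ((regOf M Λ fr).cor q) (regOf M Λ fr).pw Φ /
        ZwC q ((regOf M Λ fr).cor q) (regOf M Λ fr).pw 1 ∧
      ZwC q ((regOf M Λ fr).cor q) (regOf M Λ fr).pw Φ /
        ZwC q ((regOf M Λ fr).cor q) (regOf M Λ fr).pw 1 ≤ b := by
  obtain ⟨h0, h1⟩ := avg hx hΛ hM fr
  have h2 := h1 (fun n => 1 * Φ n + -a) (fun n n' e => by simp only [hl n n' e])
    fun n => by linarith [(h n).1]
  have h3 := h1 (fun n => -1 * Φ n + b) (fun n n' e => by simp only [hl n n' e])
    fun n => by linarith [(h n).2]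
  rw [ZwC_lin, add_div, mul_div_cancel_right₀ _ h0, mul_div_assoc] at h2 h3
  constructor <;> linarith

/-- The correction that multiplies the weights by the exponentials of the `w p`, `p ∈ U`. -/
noncomputable def ext (U : Finset (ℤ × ℤ)) (K : ℕ) (w : ℤ × ℤ → (Tor M × Fin 2 → Bool) → ℝ) :
    Cor M := fun X n => ∑ p ∈ U.filter (fun p => True ∧ ball (prj M p) K = X), w p n

theorem ZwC_ext (q : Par) (c : Cor M) (A : Gauge M) (U : Finset (ℤ × ℤ)) (K : ℕ)
    (w : ℤ × ℤ → (Tor M × Fin 2 → Bool) → ℝ) (Φ : (Tor M × Fin 2 → Bool) → ℝ) :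
    ZwC q (c + ext U K w) A Φ = ZwC q c A fun n => Φ n * ∏ p ∈ U, Real.exp (w p n) := by
  refine sum_congr rfl fun n _ => ?_
  have h : ∑ X, ext U K w X n = ∑ p ∈ U, w p n := by
    simp only [ext, true_and]
    exact sum_fiberwise_of_maps_to (fun _ _ => mem_univ _) _
  simp only [Pi.add_apply, sum_add_distrib, h, ← add_assoc, Real.exp_add, ← Real.exp_sum]
  ring

theorem le_add {c c' : Cor M} {R : ℕ} {γ γ' : ℝ} (h : c.Le R γ) (h' : c'.Le R γ') :
    (c + c').Le R (γ + γ') := by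
  obtain ⟨b, h1, h2, h3⟩ := h
  obtain ⟨b', h1', h2', h3'⟩ := h'
  refine ⟨fun X => b X + b' X, fun X n => (abs_add_le _ _).trans (add_le_add (h1 X n) (h1' X n)),
    fun X hX => ?_, fun x => ?_⟩
  · by_cases e : b X = 0
    · exact h2' X fun e' => hX (by simp only [e, e', add_zero])
    · exact h2 X e
  · rw [sum_add_distrib]
    exact add_le_add (h3 x) (h3' x)

end TiltH

open TiltH in
/-- A product of local observables is a combination of small corrections. -/
theorem tiltStmt : TiltStmt := by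
  intro C θ k₀ hC hθ
  set th := min θ 1 with hth
  have t0 : 0 < th := lt_min hθ one_pos
  have t1 : th ≤ 1 := min_le_right _ _
  have t2 : th ≤ θ := min_le_left _ _
  have C0 : 0 < C := by linarith
  have C1 : 1 ≤ C / th := (one_le_div t0).2 (by linarith)
  refine ⟨(4 * (C / th)) ^ k₀, fun q hx M _ Λ P fr T K O γ δ hΛ hP hs hk hK hM hO hb c1 c2 c3 => ?_⟩
  set R := regOf M Λ fr with hR
  have g0 : ∀ p n, 0 ≤ th * (O p n / C) ∧ th * (O p n / C) ≤ th := fun p n => by
    have h1 : 0 < O p n := (inv_pos.2 C0).trans_le (hb p n).1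
    exact ⟨by positivity, mul_le_of_le_one_right t0.le ((div_le_one C0).2 (hb p n).2)⟩
  set w : ℤ × ℤ → (Tor M × Fin 2 → Bool) → ℝ := fun p n => Real.log (1 + th * (O p n / C)) with hw
  have w1 : ∀ p n, Real.exp (w p n) = 1 + th * (O p n / C) := fun p n =>
    Real.exp_log (by linarith [(g0 p n).1])
  have w2 : ∀ p n, |w p n| ≤ θ := fun p n => by
    have h1 := Real.log_le_sub_one_of_pos (show 0 < 1 + th * (O p n / C) by linarith [(g0 p n).1])
    rw [abs_of_nonneg (Real.log_nonneg (by linarith [(g0 p n).1]))]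
    linarith [(g0 p n).2]
  have hΛ' : ∀ v ∈ Λ, zd v 0 ≤ T + K := fun v hv => (hΛ v hv).trans (Nat.le_add_right _ _)
  have lO : ∀ p ∈ P, BoxLoc (T + K + 1) (O p) := fun p hp n n' h => hO p hp n n' fun e he _ => by
    have h1 := G.mem_ball.1 he
    have h2 := tdist_triangle e.1 (prj M p) 0
    have h3 := (H3.tdist_prj_zero (M := M) p).trans (hP p hp).1
    exact h e (by omega)
  have Z0 := (avg hx hΛ' hM fr).1
  set ρ : Finset (ℤ × ℤ) → ℝ := fun U =>
    ZwC q (R.cor q) R.pw (fun n => 1 * ∏ p ∈ U ∩ P, Real.exp (w p n)) / ZwC q (R.cor q) R.pw 1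
    with hρ
  have r1 : ∀ U, 1 ≤ ρ U ∧ ρ U ≤ 2 ^ P.card := fun U => by
    refine avg_bd hx hΛ' hM fr (fun n n' h => ?_) fun n => ?_
    · simp only [w1]
      exact congrArg _ (prod_congr rfl fun p hp => by rw [lO p (mem_inter.1 hp).2 n n' h])
    · simp only [w1, one_mul]
      refine ⟨one_le_prod fun p _ => by linarith [(g0 p n).1], (prod_le_prod (g := fun _ => 2)
        (fun p _ => by linarith [(g0 p n).1]) fun p _ => by linarith [(g0 p n).2]).trans ?_⟩
      rw [prod_const]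
      exact pow_le_pow_right₀ one_le_two (card_le_card inter_subset_right)
  have Zu : ∀ U, ZwC q (R.cor q + ext (U ∩ P) K w) R.pw 1 = ρ U * ZwC q (R.cor q) R.pw 1 :=
    fun U => by
      rw [ZwC_ext, hρ, div_mul_cancel₀ _ Z0]
      rfl
  have key : ∀ (A : Gauge M) (Φ : (Tor M × Fin 2 → Bool) → ℝ),
      ZwC q (R.cor q) A (fun n => Φ n * ∏ p ∈ P, O p n) / ZwC q (R.cor q) R.pw 1 =
        ∑ U ∈ P.powerset, (C / th) ^ P.card * (-1) ^ (P \ U).card * ρ U *
          (ZwC q (R.cor q + ext (U ∩ P) K w) A Φ / ZwC q (R.cor q + ext (U ∩ P) K w) R.pw 1) := by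
    intro A Φ
    have e : (fun n => Φ n * ∏ p ∈ P, O p n) = fun n => ∑ U ∈ P.powerset,
        (C / th) ^ P.card * (-1) ^ (P \ U).card * (Φ n * ∏ p ∈ U ∩ P, Real.exp (w p n)) := by
      funext n
      have e1 : ∀ p, O p n = C / th * (Real.exp (w p n) + -1) := fun p => by
        rw [w1]
        field_simp
        ring
      rw [prod_congr rfl fun p _ => e1 p, prod_mul_distrib, prod_add, prod_const, mul_sum, mul_sum]
      refine sum_congr rfl fun U hU => ?_
      rw [prod_const, inter_eq_left.2 (mem_powerset.1 hU)]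
      ring
    rw [e, ZwC_sum, sum_div]
    refine sum_congr rfl fun U _ => ?_
    have h1 : ρ U ≠ 0 := by linarith [(r1 U).1]
    rw [Zu, ZwC_ext]
    field_simp
  refine ⟨fun U => R.cor q + ext (U ∩ P) K w,
    fun U => (C / th) ^ P.card * (-1) ^ (P \ U).card * ρ U, fun U => ⟨⟨fun n => ?_, ?_⟩, ?_, ?_, ?_⟩,
    ?_, ?_, key⟩
  · dsimp only
    rw [Pi.add_apply, Pi.add_apply, c1.empty, zero_add]
    refine sum_eq_zero fun p hp => absurd (mem_filter.1 hp).2.2 (Nonempty.ne_empty ⟨prj M p, ?_⟩)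
    exact G.mem_ball.2 (by rw [tdist_self]; omega)
  · intro X n n' h
    dsimp only
    rw [Pi.add_apply, Pi.add_apply, Pi.add_apply, c1.dep X n n' h]
    refine congrArg _ (sum_congr rfl fun p hp => ?_)
    obtain ⟨h1, -, rfl⟩ := mem_filter.1 hp
    simp only [hw, hO p (mem_inter.1 h1).2 n n' h]
  · intro X hX n
    dsimp only
    rw [Pi.add_apply, Pi.add_apply, c2 X hX, zero_add]
    refine sum_eq_zero fun p hp => ?_
    obtain ⟨h1, -, rfl⟩ := mem_filter.1 hp
    obtain ⟨h2, h3⟩ := hP p (mem_inter.1 h1).2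
    have h4 := hX (prj M p) (G.mem_ball.2 (by rw [tdist_self]; omega))
    have h5 : ∀ f, tdist f (prj M p) ≤ 1 → f ∉ R.In := fun f hf =>
      DC.not_in hΛ h2 (by omega) h3 hf
    have h6 := h5 (prj M p) (by rw [tdist_self]; omega)
    cases fr
    · have h7 := h5 (oth (prj M p, 0)) ((DC.near_oth _ _).trans (by rw [tdist_self]))
      have h8 : R.pw (prj M p, 0) = 0 := by
        rw [Reg.pw, if_neg (by simp [hR, regOf]), if_neg (not_or.2 ⟨h6, h7⟩)]
      rw [flux, h8] at h4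
      simp at h4
    · exact absurd (DC.in_of_flux rfl h4 0).1 h6
  · obtain ⟨c₁, c₂, e, h1, h2⟩ := c3
    refine ⟨c₁, c₂ + ext (U ∩ P) K w, by rw [← add_assoc, ← e], h1, le_add h2 ?_⟩
    refine DC.le_terms (U ∩ P) (fun _ => True) (fun p => ball (prj M p) K) (fun _ => θ) w
      (fun p _ n => w2 p n) (fun p _ x hx y hy => ?_) (fun x => ?_) fun X n => rfl
    · have h3 := G.mem_ball.1 hx
      have h4 := G.mem_ball.1 hy
      have h5 := tdist_triangle x (prj M p) y
      rw [tdist_comm (prj M p)] at h5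
      omega
    · have h3 : ((U ∩ P).filter fun p => x ∈ ball (prj M p) K).card ≤ 1 := by
        refine card_le_one.2 fun p hp p' hp' => by_contra fun e => ?_
        obtain ⟨a1, a2⟩ := mem_filter.1 hp
        obtain ⟨a3, a4⟩ := mem_filter.1 hp'
        have a5 := hs p (mem_inter.1 a1).2 p' (mem_inter.1 a3).2 e
        rw [← H3.tdist_prj (M := M) (hP p (mem_inter.1 a1).2).1 (hP p' (mem_inter.1 a3).2).1
          (by omega)] at a5
        have a6 := tdist_triangle (prj M p) x (prj M p')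
        rw [tdist_comm _ x] at a6
        have a7 := G.mem_ball.1 a2
        have a8 := G.mem_ball.1 a4
        omega
      rw [sum_const, nsmul_eq_mul]
      exact mul_le_of_le_one_left hθ.le (by exact_mod_cast h3)
  · rw [Zu]
    exact mul_ne_zero (by linarith [(r1 U).1]) Z0
  · refine (sum_le_card_nsmul _ _ ((C / th) ^ P.card * 2 ^ P.card) fun U _ => ?_).trans ?_
    · rw [abs_mul, abs_mul, abs_pow (-1), abs_neg, abs_one, one_pow, mul_one,
        abs_of_nonneg (by positivity), abs_of_nonneg (by linarith [(r1 U).1])]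
      exact mul_le_mul_of_nonneg_left (r1 U).2 (by positivity)
    · rw [card_powerset, nsmul_eq_mul]
      refine le_trans (le_of_eq ?_) (pow_le_pow_right₀ (by linarith) hk)
      rw [show (4 : ℝ) = 2 * 2 by norm_num]
      push_cast
      simp only [mul_pow]
      ring
  · have h1 := key R.pw 1
    rw [sum_congr rfl fun U _ => by
      rw [div_self (by rw [Zu]; exact mul_ne_zero (by linarith [(r1 U).1]) Z0), mul_one]] at h1
    rw [← h1]
    have h2 := (avg_bd hx hΛ' hM fr (Φ := fun n => (1 : (Tor M × Fin 2 → Bool) → ℝ) n *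
      ∏ p ∈ P, O p n) (a := C⁻¹ ^ P.card) (b := C ^ P.card) (fun n n' h => by
        exact congrArg _ (prod_congr rfl fun p hp => lO p hp n n' h)) fun n => by
        rw [Pi.one_apply, one_mul, ← prod_const, ← prod_const]
        exact ⟨prod_le_prod (fun _ _ => by positivity) fun p _ => (hb p n).1,
          prod_le_prod (fun p _ => (inv_pos.2 C0).le.trans (hb p n).1) fun p _ => (hb p n).2⟩).1
    have h3 : C ^ P.card ≤ (4 * (C / th)) ^ k₀ := by
      have : C ≤ C / th := le_div_self C0.le t0 t1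
      exact (pow_le_pow_left₀ C0.le (by linarith) _).trans (pow_le_pow_right₀ (by linarith) hk)
    calc (1 : ℝ) = C ^ P.card * C⁻¹ ^ P.card := by rw [← mul_pow, mul_inv_cancel₀ C0.ne', one_pow]
      _ ≤ _ := mul_le_mul h3 h2 (by positivity) (by positivity)

end Vale.Agent.P144Z
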