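import Vale.Agent.P144E.Tilt.Tilt

/-!
The correlations of a set in terms of the nearest-neighbour model on the dug set.
-/

namespace Vale.Agent.P144Z

open Finset P144

namespace TiltH

open UL

theorem psi_div {m : ℕ} (D : ℝ) (A : Fin m → ℝ) (N : Finset (Fin m) → ℝ) {ω : ℝ} (hω : ω ≠ 0) :
    UL.psi (D / ω) (fun k => A k / ω) (fun t => N t / ω) = UL.psi D A N := by
  unfold UL.psi
  simp only [div_div_div_cancel_right₀ hω]

/-- A combination of recentred moments. -/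
theorem comb {ι : Type} {m : ℕ} (s : Finset ι) (c : ι → ℝ) {B₁ B ε : ℝ}
    (h1 : ∑ U ∈ s, |c U| ≤ B₁) (h2 : 1 ≤ B₁ * ∑ U ∈ s, c U) (hε : 0 ≤ ε) (hε1 : ε ≤ 1)
    (d : ι → Fin m → ℝ) (hd : ∀ U k, |d U k| ≤ ε) (X : ι → Finset (Fin m) → ℝ)
    (X₀ : Finset (Fin m) → ℝ) (hX : ∀ U t, |X U t - X₀ t| ≤ ε) (hB : ∀ t, |X₀ t| ≤ B)
    (t : Finset (Fin m)) :
    |(∑ U ∈ s, c U * ∑ t' ∈ t.powerset, X U t' * ∏ k ∈ t \ t', d U k) / (∑ U ∈ s, c U) - X₀ t| ≤
      B₁ ^ 2 * (1 + 2 ^ m * (1 + B)) * ε := by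
  have b0 : 0 ≤ B := (abs_nonneg _).trans (hB ∅)
  have b1 : 0 ≤ B₁ := (sum_nonneg fun _ _ => abs_nonneg _).trans h1
  have ω0 : 0 < ∑ U ∈ s, c U := by
    by_contra h
    nlinarith [mul_nonneg b1 (neg_nonneg.2 (not_lt.1 h))]
  have k : ∀ U, |∑ t' ∈ t.powerset, X U t' * ∏ k ∈ t \ t', d U k - X₀ t| ≤
      (1 + 2 ^ m * (1 + B)) * ε := fun U => by
    rw [← add_sum_erase _ _ (mem_powerset_self t), sdiff_self, bot_eq_empty, prod_empty, mul_one,
      add_sub_right_comm]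
    refine (abs_add_le _ _).trans ((add_le_add (hX U t) ((abs_sum_le_sum_abs _ _).trans
      (sum_le_card_nsmul _ _ ((1 + B) * ε) fun t' ht' => ?_))).trans ?_)
    · obtain ⟨e1, e2⟩ := mem_erase.1 ht'
      obtain ⟨k, hk⟩ : (t \ t').Nonempty := sdiff_nonempty.2 fun h =>
        e1 (Subset.antisymm (mem_powerset.1 e2) h)
      have e3 : |X U t'| ≤ 1 + B := by
        have := abs_add_le (X U t' - X₀ t') (X₀ t')
        rw [sub_add_cancel] at this
        linarith [hX U t', hB t']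
      rw [abs_mul, ← mul_prod_erase _ _ hk, abs_mul, abs_prod]
      refine mul_le_mul e3 ((mul_le_of_le_one_right (abs_nonneg _) ?_).trans (hd U k))
        (by positivity) (by positivity)
      exact prod_le_one (fun _ _ => abs_nonneg _) fun i _ => (hd U i).trans hε1
    · have e1 : ((t.powerset.erase t).card : ℝ) ≤ 2 ^ m := by
        have e2 : t.card ≤ m := by simpa using card_le_univ t
        have e3 := card_erase_le (s := t.powerset) (a := t)
        rw [card_powerset] at e3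
        exact_mod_cast e3.trans (Nat.pow_le_pow_right (by norm_num) e2)
      rw [nsmul_eq_mul]
      nlinarith [mul_le_mul_of_nonneg_right e1 (show 0 ≤ (1 + B) * ε by positivity)]
  rw [div_sub' ω0.ne', sum_mul, ← sum_sub_distrib, abs_div, abs_of_pos ω0, div_le_iff₀ ω0]
  refine (abs_sum_le_sum_abs _ _).trans ((sum_le_sum (g := fun U => |c U| *
    ((1 + 2 ^ m * (1 + B)) * ε)) fun U _ => ?_).trans ?_)
  · rw [← mul_sub, abs_mul]
    exact mul_le_mul_of_nonneg_left (k U) (abs_nonneg _)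
  · rw [← sum_mul]
    have e0 : 0 ≤ (1 + 2 ^ m * (1 + B)) * ε := by positivity
    have e1 := mul_le_mul_of_nonneg_right h1 e0
    have e2 := mul_le_mul_of_nonneg_left h2 (mul_nonneg b1 e0)
    nlinarith

variable {M : ℕ} [NeZero M] {H m n : ℕ}

/-- The sums over the sectors with the weight `W` and the centring `e`. -/
noncomputable def nW (q : Par) (R : Reg M) (a : Site) (hs : Fin H → Site) (y : Fin m → Site)
    (j : Fin m → Fin 2) (e : Fin m → ℝ) (W : (Tor M × Fin 2 → Bool) → ℝ) (x : Fin n → Site)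
    (t : Finset (Fin m)) : ℝ :=
  ∑ S, ZwC q (R.cor q) (R.pw * (spinG M a x * holeG M a hs S))
    (fun c => (∏ k ∈ t, (sgn (c (yE M y j k, dE y j k)) - e k)) * W c) / ZwC q (R.cor q) R.pw 1

variable {q : Par} {Λ : Finset Site} {fr : Bool} {T r : ℕ} {a : Site} {hs : Fin H → Site}
  {y : Fin m → Site} {j : Fin m → Fin 2} {x : Fin n → Site} {W : (Tor M × Fin 2 → Bool) → ℝ}

theorem sec_W {E : (Config → ℝ) → ℝ} (hE : E (fun _ => 1) = 1)
    (hG : ∀ (F : Config → ℝ) (Φ : (Tor M × Fin 2 → Bool) → ℝ),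
      (∀ σ σ', (∀ x ∈ Λ, σ x = σ' x) → F σ = F σ') →
      (∀ s : Tor M → Bool, (fr = false → s (prj M a) = true) → F (per M s) = Φ (dom s)) →
      (fr = true → BoxLoc (T + 1) Φ) → E F =
        secE q (regOf M Λ fr) a hs (fun n => Φ n * W n) / secE q (regOf M Λ fr) a hs W)
    (h0 : ZwC q ((regOf M Λ fr).cor q) (regOf M Λ fr).pw 1 ≠ 0) (h1 : Holes Λ T r a hs)
    (hx : ∀ i, x i ∈ Λ) (hy : ∀ k, y k ∈ Λ ∧ y k + dir (j k) ∈ Λ) (hfr : fr = true → Even n)
    (e : Fin m → ℝ) (t : Finset (Fin m)) :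
    E (fun σ => (∏ i, sp (σ (x i))) *
      ∏ k ∈ t, (sp (σ (y k)) * sp (σ (y k + dir (j k))) - e k)) =
      nW q (regOf M Λ fr) a hs y j e W x t / nW q (regOf M Λ fr) a hs y j e W Fin.elim0 ∅ := by
  set R := regOf M Λ fr with hR
  have h3 : ∑ S, ZwC q (R.cor q) (R.pw * holeG M a hs S) 1 ≠ 0 := fun h => by
    have h4 := hG (fun _ => 1) (fun _ => 1) (fun _ _ _ => rfl) (fun _ _ => rfl) fun _ _ _ _ => rfl
    rw [hE, secE, h, div_zero, zero_div] at h4
    exact one_ne_zero h4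
  have h2 := hG
    (fun σ => (∏ i, sp (σ (x i))) * ∏ k ∈ t, (sp (σ (y k)) * sp (σ (y k + dir (j k))) - e k))
    (fun c => (∏ k ∈ t, (sgn (c (yE M y j k, dE y j k)) - e k)) *
      obs M (fun c' => ∏ i, pHV c' a (x i)) c)
    (fun σ σ' h => by simp only [fun i => h _ (hx i), fun k => h _ (hy k).1, fun k => h _ (hy k).2])
    (fun s hs' => by
      have k1 : obs M (fun c' => ∏ i, pHV c' a (x i)) (dom s) =
          ∏ i, obs M (fun c' => pHV c' a (x i)) (dom s) := rfl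
      have k2 : sp (per M s a) ^ n = 1 := by
        cases fr
        · rw [show per M s a = true from hs' rfl]
          simp [sp]
        · rw [← (hfr rfl).pow_abs, U1.abs_sp, one_pow]
      rw [k1]
      simp only [pHV_dom, yE, dE, sgn_dom]
      rw [prod_mul_distrib, prod_const, card_univ, Fintype.card_fin, k2, one_mul, mul_comm])
    (fun _ c c' h => by
      have k1 : ∀ c, obs M (fun c' => ∏ i, pHV c' a (x i)) c =
          ∏ i, obs M (fun c' => pHV c' a (x i)) c := fun _ => rfl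
      simp only [k1, fun i => box_pHV h1.a_le (h1.box _ (hx i)) c c' h]
      congr 1
      refine prod_congr rfl fun k _ => ?_
      rw [h (yE M y j k, dE y j k) ((UL.tdist_le _).trans ((h1.box _ ?_).trans (Nat.le_succ T)))]
      have : (dualE (y k) (j k)).1 = y k + dir (j k) := rfl
      rw [this]
      exact (hy k).2)
  rw [h2]
  unfold secE nW
  rw [← sum_div, ← sum_div, div_div_div_cancel_right₀ h3, div_div_div_cancel_right₀ h0]
  congr 1
  · refine sum_congr rfl fun S _ => ?_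
    rw [mul_comm (spinG M a x), ← mul_assoc, ZwC_spinG]
    congr 1
    funext c
    ring
  · refine sum_congr rfl fun S _ => ?_
    simp only [spinG, univ_eq_empty, prod_empty, one_mul]

theorem nW_eq {ι : Type} {R : Reg M} {s : Finset ι} {u : ι → Cor M} {c : ι → ℝ}
    (hT : ∀ (A : Gauge M) (Φ : (Tor M × Fin 2 → Bool) → ℝ),
      ZwC q (R.cor q) A (fun n => Φ n * W n) / ZwC q (R.cor q) R.pw 1 =
        ∑ U ∈ s, c U * (ZwC q (u U) A Φ / ZwC q (u U) R.pw 1)) (e : Fin m → ℝ) (w ℓ : ℝ)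
    (t : Finset (Fin m)) :
    w * ℓ ^ t.card * nW q R a hs y j e W x t = ∑ U ∈ s, c U * ∑ t' ∈ t.powerset,
      w * ℓ ^ t'.card * mxU q (u U) R a hs y j x t' *
        ∏ k ∈ t \ t', ℓ * (enC q (u U) R.pw (yE M y j k) (dE y j k) - e k) := by
  unfold nW mxU mixC
  simp only [hT]
  rw [sum_comm, mul_sum]
  refine sum_congr rfl fun U _ => ?_
  have e1 : (fun c => ∏ k ∈ t, (sgn (c (yE M y j k, dE y j k)) - e k)) =
      fun c : Tor M × Fin 2 → Bool => ∑ t' ∈ t.powerset,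
        (∏ k ∈ t \ t', (enC q (u U) R.pw (yE M y j k) (dE y j k) - e k)) *
          ∏ k : t', (sgn (c (yE M y j k, dE y j k)) -
            enC q (u U) R.pw (yE M y j k) (dE y j k)) := by
    funext c
    rw [prod_congr rfl fun k _ => (sub_add_sub_cancel _
      (enC q (u U) R.pw (yE M y j k) (dE y j k)) _).symm, prod_add]
    refine sum_congr rfl fun t' _ => ?_
    rw [mul_comm, prod_coe_sort t' fun k => sgn (c (yE M y j k, dE y j k)) -
      enC q (u U) R.pw (yE M y j k) (dE y j k)]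
  simp only [e1, ZwC_sum, sum_div, mul_sum, sum_mul]
  rw [sum_comm]
  refine sum_congr rfl fun t' ht' => sum_congr rfl fun S _ => ?_
  rw [prod_mul_distrib, prod_const, ← card_sdiff_add_card_eq_card (mem_powerset.1 ht'), pow_add]
  ring

theorem one_le_mx (y : Fin m → Site) (j : Fin m → Fin 2) (hΛ : ∀ v ∈ Λ, zd v 0 ≤ T)
    (hM : 4 * (T + 2) ≤ M) (hfr : fr = true → H = 0) :
    1 ≤ mx par0 (regOf M Λ fr) a hs y j Fin.elim0 ∅ := by
  have h0 := (avg (q := par0) I1.tc_pos hΛ hM fr).1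
  have e : ∀ S, mixC par0 ((regOf M Λ fr).cor par0) (regOf M Λ fr).pw
      (spinG M a Fin.elim0 * holeG M a hs S) (fun k : (∅ : Finset (Fin m)) => yE M y j k)
      (fun k => dE y j k) =
      Zw par0 ((regOf M Λ fr).pw * holeG M a hs S) 1 / Zw par0 (regOf M Λ fr).pw 1 := fun S => by
    simp only [mixC, spinG, univ_eq_empty, prod_empty, one_mul, Reg.cor_par0, ZwC_zero]
    rfl
  rw [Reg.cor_par0, ZwC_zero] at h0
  unfold mx
  simp only [e]
  refine le_trans (le_of_eq ?_) (single_le_sum (fun S _ => ?_) (mem_univ ∅))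
  · rw [holeG, prod_empty, mul_one, div_self h0]
  · cases fr
    · exact ratio_nonneg hΛ hM a hs S
    · obtain rfl := hfr rfl
      rw [Subsingleton.elim S ∅, holeG, prod_empty, mul_one, div_self h0]
      exact zero_le_one

/-- The main estimates for the weighted sums. -/
theorem est {ι : Type} {R : Reg M} {s : Finset ι} {u : ι → Cor M} {c : ι → ℝ}
    {Zσ Zε γ δ ℓ B B₁ z ε : ℝ} (hT : ∀ (A : Gauge M) (Φ : (Tor M × Fin 2 → Bool) → ℝ),
      ZwC q (R.cor q) A (fun n => Φ n * W n) / ZwC q (R.cor q) R.pw 1 =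
        ∑ U ∈ s, c U * (ZwC q (u U) A Φ / ZwC q (u U) R.pw 1))
    (hu : ∀ U, (u U).Ok ∧ (u U).Off R.pw ∧ (u U).Sm q.R γ δ) (U₀ : ι)
    (h1 : ∑ U ∈ s, |c U| ≤ B₁) (h2 : 1 ≤ B₁ * ∑ U ∈ s, c U) (hε : 0 ≤ ε) (hε1 : ε ≤ 1)
    (hℓ : 0 < ℓ) (hz : ∀ k ≤ m, |Zσ ^ n * Zε ^ k| ≤ z)
    (hc : CoreAt q Zσ Zε γ δ R a hs y j x ℓ B ε) (t : Finset (Fin m)) :
    |ℓ ^ ((n : ℝ) / 8) * ℓ ^ t.card * (nW q R a hs y j
        (fun k => enC q (u U₀) R.pw (yE M y j k) (dE y j k)) W x t / ∑ U ∈ s, c U) -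
      Zσ ^ n * ℓ ^ ((n : ℝ) / 8) * (Zε * ℓ) ^ t.card * mx par0 R a hs y j x t| ≤
        B₁ ^ 2 * (1 + 2 ^ m * (1 + z * |B|)) * ε ∧
    |Zσ ^ n * ℓ ^ ((n : ℝ) / 8) * (Zε * ℓ) ^ t.card * mx par0 R a hs y j x t| ≤ z * |B| := by
  have k : ∀ t : Finset (Fin m),
      |Zσ ^ n * ℓ ^ ((n : ℝ) / 8) * (Zε * ℓ) ^ t.card * mx par0 R a hs y j x t| ≤ z * |B| := by
    intro t
    have e1 := hz t.card (by simpa using card_le_univ t)
    have e2 := ((hc _ (hu U₀).1 (hu U₀).2.1 (hu U₀).2.2).1 t).2.trans (le_abs_self B)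
    refine le_trans (le_of_eq ?_) (mul_le_mul e1 e2 (abs_nonneg _) ((abs_nonneg _).trans e1))
    rw [← abs_mul]
    exact congrArg _ (by ring)
  refine ⟨?_, k t⟩
  rw [← mul_div_assoc, nW_eq hT]
  refine comb s c h1 h2 hε hε1 (fun U k => ℓ * (enC q (u U) R.pw (yE M y j k) (dE y j k) -
    enC q (u U₀) R.pw (yE M y j k) (dE y j k))) (fun U k => ?_)
    (fun U t' => ℓ ^ ((n : ℝ) / 8) * ℓ ^ t'.card * mxU q (u U) R a hs y j x t') _
    (fun U t' => ((hc _ (hu U).1 (hu U).2.1 (hu U).2.2).1 t').1) k t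
  rw [abs_mul, abs_of_pos hℓ]
  exact (hc _ (hu U).1 (hu U).2.1 (hu U).2.2).2 _ (hu U₀).1 (hu U₀).2.1 (hu U₀).2.2 k

end TiltH

open TiltH UL in
/-- The correlations of a set in terms of the nearest-neighbour model on the dug set. -/
theorem halfStmt_of (hS : SpStmt) (hT : TiltStmt) : HalfStmt := by
  intro R₁ t n m k₀ B θ Zσ Zε ε ht hθ hε
  obtain ⟨C, hC, hS⟩ := hS R₁ t
  obtain ⟨B₁, hT⟩ := hT C θ k₀ hC hθ
  set z : ℝ := (|Zσ| + 1) ^ n * (|Zε| + 1) ^ m with hz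
  have a1 : 1 ≤ |Zσ| + 1 := by linarith [abs_nonneg Zσ]
  have a2 : 1 ≤ |Zε| + 1 := by linarith [abs_nonneg Zε]
  have a6 : ∀ i ≤ n, ∀ k ≤ m, |Zσ ^ i * Zε ^ k| ≤ z := fun i hi k hk => by
    rw [abs_mul, abs_pow, abs_pow]
    exact mul_le_mul ((pow_le_pow_left₀ (abs_nonneg _) (by linarith) i).trans
      (pow_le_pow_right₀ a1 hi)) ((pow_le_pow_left₀ (abs_nonneg _) (by linarith) k).trans
        (pow_le_pow_right₀ a2 hk)) (by positivity) (by positivity)
  obtain ⟨δ₀, hδ₀, hψ⟩ := psi_cont m (z * |B|) hε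
  set κ : ℝ := B₁ ^ 2 * (1 + 2 ^ m * (1 + z * |B|)) with hκ
  have κ0 : 0 ≤ κ := by positivity
  refine ⟨min 1 (δ₀ / (κ + 1)), by positivity, fun J lam β q γ δ _ hq hR x1 x2 hsm hqR M _ Λ P fr T
    r H a hs x y j ℓ h1 hc hfr hP hsep hk hM hx hy hℓ c1 c2 c3 d₁ d₀ => ?_⟩
  have κ1 : κ * min 1 (δ₀ / (κ + 1)) ≤ δ₀ := by
    refine (mul_le_mul_of_nonneg_left (min_le_right _ _) κ0).trans ?_
    rw [← mul_div_assoc, div_le_iff₀ (by linarith)]
    nlinarith
  obtain ⟨O, hO, hb, hG⟩ := hS J lam β q hq hR x1 x2 hsm M Λ P fr T r H a hs h1 hc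
    (fun h => (hfr h).1) hP hsep hM
  have x0 : 0 < q.x := by linarith
  obtain ⟨u, c, hu, s1, s2, hT⟩ := hT q x0 M (dig Λ P t) P fr T (t + R₁ + 2) O γ δ h1.box
    (fun p hp => ⟨hP p hp, fun v hv h => by
      have := (mem_dig.1 h).2 p hp
      omega⟩) hsep hk (by omega) (by omega) hO hb c1 c2 c3
  have hu' : ∀ U, (u U).Ok ∧ (u U).Off (regOf M (dig Λ P t) fr).pw ∧ (u U).Sm q.R γ (δ + θ) :=
    fun U => ⟨(hu U).1, (hu U).2.1, (hu U).2.2.1⟩
  have Z0 := (avg x0 h1.box (by omega : 4 * (T + q.R + 2) ≤ M) fr).1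
  have ω0 : ∑ U ∈ P.powerset, c U ≠ 0 := fun h => by
    rw [h, mul_zero] at s2
    linarith
  have e₁ := est hT hu' ∅ s1 s2 (by positivity) (min_le_left _ _) hℓ (a6 n le_rfl) d₁
  have e₀ := est hT hu' ∅ s1 s2 (by positivity) (min_le_left _ _) hℓ (a6 0 (Nat.zero_le n)) d₀
  simp only [Nat.cast_zero, zero_div, Real.rpow_zero, pow_zero, one_mul] at e₀
  set R := regOf M (dig Λ P t) fr with hRR
  set e : Fin m → ℝ := fun k => enC q (u ∅) R.pw (yE M y j k) (dE y j k) with he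
  have q1 : lcor (gibbs J lam q.V β (if fr then none else some fun _ => true) Λ) x y j =
      UL.psi (nW q R a hs y j e (fun n => ∏ p ∈ P, O p n) Fin.elim0 ∅)
        (fun k => nW q R a hs y j e (fun n => ∏ p ∈ P, O p n) Fin.elim0 {k})
        (nW q R a hs y j e (fun n => ∏ p ∈ P, O p n) x) := by
    refine recentre _ Λ _ (fun k σ => sp (σ (y k)) * sp (σ (y k + dir (j k)))) e (fun k => ?_)
      (sec_W (UG.gibbs_one _ _) hG Z0 h1 hx hy (fun h => (hfr h).2) e)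
    have h := sec_W (x := Fin.elim0) (UG.gibbs_one _ _) hG Z0 h1 (fun i => i.elim0) hy
      (fun _ => Even.zero) e {k}
    simpa only [univ_eq_empty, prod_empty, one_mul, prod_singleton] using h
  have o1 := one_le_mx (M := M) (a := a) (hs := hs) y j h1.box (by omega) fun h => (hfr h).1
  set w : ℝ := ℓ ^ ((n : ℝ) / 8) with hw
  have w0 : 0 < w * ℓ ^ m := by positivity
  have key := hψ (nW q R a hs y j e (fun n => ∏ p ∈ P, O p n) Fin.elim0 ∅ / ∑ U ∈ P.powerset, c U)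
    _ (fun k => ℓ * (nW q R a hs y j e (fun n => ∏ p ∈ P, O p n) Fin.elim0 {k} /
      ∑ U ∈ P.powerset, c U)) (fun k => Zε * ℓ * mx par0 R a hs y j Fin.elim0 {k})
    (fun t => w * ℓ ^ t.card * (nW q R a hs y j e (fun n => ∏ p ∈ P, O p n) x t /
      ∑ U ∈ P.powerset, c U))
    (fun t => Zσ ^ n * w * (Zε * ℓ) ^ t.card * mx par0 R a hs y j x t) o1
    (by
      have h := (e₀ ∅).2
      simp only [card_empty, pow_zero, one_mul] at h
      exact (le_abs_self _).trans h)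
    (fun k => by simpa only [card_singleton, pow_one] using (e₀ {k}).2) (fun t => (e₁ t).2)
    (by simpa only [card_empty, pow_zero, one_mul] using (e₀ ∅).1.trans κ1)
    (fun k => by simpa only [card_singleton, pow_one] using (e₀ {k}).1.trans κ1)
    fun t => (e₁ t).1.trans κ1
  rw [psi_scale, psi_scale, psi_div _ _ _ ω0, ← q1] at key
  refine le_trans (le_of_eq ?_) key
  rw [← abs_of_pos w0, ← abs_mul, abs_of_pos w0]
  exact congrArg _ (by ring)

end Vale.Agent.P144Z
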